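import Mathlib

/-! # P275, lowest degree: row E, the weights of the two lowest degrees from the point count -/

namespace Vale.Agent.P275.R2.H239

open Filter Topology Polynomial

/-- the degree and the leading coefficient of a real polynomial from a limit along a sequence -/
theorem lead_of_tendsto (Q : ℝ[X]) (t : ℕ) (c : ℝ) (hc : c ≠ 0) (u : ℕ → ℝ)
    (hu : Tendsto u atTop atTop)
    (h : Tendsto (fun i => Q.eval (u i) / (u i) ^ t) atTop (𝓝 c)) :
    Q.natDegree = t ∧ Q.leadingCoeff = c := by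
  have hX : ∀ x : ℝ, (X ^ t : ℝ[X]).eval x = x ^ t := by intro x; simp
  have hX0 : (X ^ t : ℝ[X]) ≠ 0 := pow_ne_zero _ X_ne_zero
  rcases lt_trichotomy Q.degree ((X ^ t : ℝ[X]).degree) with hd | hd | hd
  · have h1 := (Polynomial.div_tendsto_atTop_zero_of_degree_lt Q (X ^ t) hd).comp hu
    have h2 : Tendsto (fun i => Q.eval (u i) / (u i) ^ t) atTop (𝓝 0) := by
      refine h1.congr fun i => ?_
      simp
    exact absurd (tendsto_nhds_unique h h2) hc
  · have h1 := (Polynomial.div_tendsto_atTop_leadingCoeff_div_of_degree_eq Q (X ^ t) hd).comp hu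
    have h2 : Tendsto (fun i => Q.eval (u i) / (u i) ^ t) atTop (𝓝 Q.leadingCoeff) := by
      have h3 : Q.leadingCoeff / (X ^ t : ℝ[X]).leadingCoeff = Q.leadingCoeff := by simp
      rw [h3] at h1
      refine h1.congr fun i => ?_
      simp
    refine ⟨?_, (tendsto_nhds_unique h h2).symm⟩
    have h4 := natDegree_eq_natDegree hd
    rw [h4]; simp
  · have h1 := (Polynomial.abs_div_tendsto_atTop_atTop_of_degree_gt Q (X ^ t) hd hX0).comp hu
    have h2 : Tendsto (fun i => |Q.eval (u i) / (u i) ^ t|) atTop atTop := by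
      refine h1.congr fun i => ?_
      simp
    exact absurd h2 (not_tendsto_atTop_of_tendsto_nhds h.abs)

/-- the polynomial of the weights -/
noncomputable def wp (M : ℕ) (h : ℕ → ℕ → ℕ) : ℝ[X] :=
  ∑ k ∈ Finset.range (2 * M + 1), ∑ w ∈ Finset.range (2 * k + 1),
    C ((-1) ^ k * (h k w : ℝ)) * X ^ (4 * M - w)

theorem coeff_wp (M : ℕ) (h : ℕ → ℕ → ℕ) (hw : ∀ k w, h k w ≠ 0 → k ≤ w ∧ w ≤ 2 * k) (u : ℕ)
    (hu : u ≤ 4 * M) :
    (wp M h).coeff (4 * M - u) =
      ∑ k ∈ Finset.range (2 * M + 1), (-1) ^ k * (h k u : ℝ) := by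
  unfold wp
  rw [finsetSum_coeff]
  refine Finset.sum_congr rfl fun k hk => ?_
  rw [finsetSum_coeff]
  have hk' : k ≤ 2 * M := by simpa [Nat.lt_succ_iff] using hk
  have h1 : ∀ w ∈ Finset.range (2 * k + 1),
      (C ((-1) ^ k * (h k w : ℝ)) * X ^ (4 * M - w) : ℝ[X]).coeff (4 * M - u) =
        if w = u then (-1) ^ k * (h k w : ℝ) else 0 := by
    intro w hw'
    have hw2 : w ≤ 2 * k := by simpa [Nat.lt_succ_iff] using hw'
    rw [coeff_C_mul_X_pow]
    by_cases hwu : w = u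
    · subst hwu; simp
    · rw [if_neg hwu, if_neg (by omega)]
  rw [Finset.sum_congr rfl h1, Finset.sum_ite_eq']
  split_ifs with hh
  · rfl
  · have : h k u = 0 := by
      by_contra h0
      have := (hw k u h0).2
      apply hh
      simp; omega
    rw [this]; simp

/-- row E with abstract numbers -/
theorem core {M D τ G K : ℕ} (hG : 1 ≤ G) (h1 : D + 1 ≤ M) (h2 : 4 * M + 4 * G = 2 * D + 2 + 2 * τ)
    (hK : K ≠ 0) (e : ℂ → ℂ)
    (he : Tendsto (fun x : ℝ => e x / (x : ℂ) ^ τ) atTop (𝓝 (-((2 * G : ℕ) : ℂ))))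
    (h : ℕ → ℕ → ℕ) (hw : ∀ k w, h k w ≠ 0 → k ≤ w ∧ w ≤ 2 * k)
    (hz : ∀ k w, k ≤ 2 * D → h k w = 0)
    (hs : ∑ w ∈ Finset.range (2 * (2 * D + 1) + 1), h (2 * D + 1) w = 2 * G)
    (hcnt : ∀ p : ℕ, p.Prime → p ≡ 1 [MOD K] →
      ((p : ℂ) - 1) ^ (2 * G) *
        ∑ k ∈ Finset.range (2 * M + 1),
          ∑ w ∈ Finset.range (2 * k + 1), (-1) ^ k * (h k w : ℂ) *
            ((Real.sqrt p : ℝ) : ℂ) ^ (4 * M - w) = e p) :
    (∀ w, h (2 * D + 1) w = if w = 2 * (D + 1) then 2 * G else 0) ∧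
    h (2 * D + 2) (2 * D + 2) = 0 := by
  classical
  -- the primes
  have hp : ∀ i : ℕ, ∃ p : ℕ, p.Prime ∧ i < p ∧ p ≡ 1 [MOD K] := fun i =>
    Nat.exists_prime_gt_modEq_one i hK
  choose p pp pi pm using hp
  have hpt : Tendsto (fun i => (p i : ℝ)) atTop atTop := by
    refine tendsto_atTop_mono (fun i => ?_) (tendsto_natCast_atTop_atTop (R := ℝ))
    exact_mod_cast (pi i).le
  have hut : Tendsto (fun i => Real.sqrt (p i)) atTop atTop := Real.tendsto_sqrt_atTop.comp hpt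
  set S : ℝ[X] := wp M h with hS
  set Q : ℝ[X] := (X ^ 2 - 1) ^ (2 * G) * S with hQ
  have hev : ∀ i, ((Q.eval (Real.sqrt (p i)) : ℝ) : ℂ) = e (p i) := by
    intro i
    rw [← hcnt (p i) (pp i) (pm i)]
    have hsq : (Real.sqrt (p i)) ^ 2 = (p i : ℝ) := Real.sq_sqrt (Nat.cast_nonneg _)
    rw [hQ, hS, wp]
    simp only [eval_mul, eval_pow, eval_sub, eval_X, eval_one, eval_finsetSum, eval_C, hsq]
    push_cast
    rfl
  have hlim : Tendsto (fun i => Q.eval (Real.sqrt (p i)) / (Real.sqrt (p i)) ^ (2 * τ)) atTop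
      (𝓝 (-((2 * G : ℕ) : ℝ))) := by
    have h3 := he.comp hpt
    have h4 : Tendsto (fun i => (e ((p i : ℝ) : ℂ) / (((p i : ℝ) : ℂ)) ^ τ).re) atTop
        (𝓝 (-((2 * G : ℕ) : ℂ)).re) := (Complex.continuous_re.tendsto _).comp h3
    have h5 : (-((2 * G : ℕ) : ℂ)).re = -((2 * G : ℕ) : ℝ) := by simp
    rw [h5] at h4
    refine h4.congr fun i => ?_
    have hsq : (Real.sqrt (p i)) ^ (2 * τ) = (p i : ℝ) ^ τ := by
      rw [pow_mul, Real.sq_sqrt (Nat.cast_nonneg _)]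
    rw [hsq, Complex.ofReal_natCast, ← hev i]
    have : ((Q.eval (Real.sqrt (p i)) : ℝ) : ℂ) / ((p i : ℕ) : ℂ) ^ τ =
        ((Q.eval (Real.sqrt (p i)) / (p i : ℝ) ^ τ : ℝ) : ℂ) := by push_cast; rfl
    rw [this, Complex.ofReal_re]
  have hG0 : (-((2 * G : ℕ) : ℝ)) ≠ 0 := by
    have : (0 : ℝ) < ((2 * G : ℕ) : ℝ) := by exact_mod_cast (by omega : 0 < 2 * G)
    exact (neg_neg_of_pos this).ne
  obtain ⟨hd, hl⟩ := lead_of_tendsto Q (2 * τ) _ hG0 _ hut hlim
  -- the monic factor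
  have hmon : ((X ^ 2 - 1) ^ (2 * G) : ℝ[X]).Monic := by
    refine Monic.pow ?_ _
    have := monic_X_pow_sub_C (1 : ℝ) (n := 2) (by norm_num)
    simpa using this
  have hmd : ((X ^ 2 - 1) ^ (2 * G) : ℝ[X]).natDegree = 4 * G := by
    rw [Monic.natDegree_pow (by simpa using monic_X_pow_sub_C (1 : ℝ) (n := 2) (by norm_num))]
    have := natDegree_X_pow_sub_C (n := 2) (r := (1 : ℝ))
    rw [show (X ^ 2 - 1 : ℝ[X]) = X ^ 2 - C 1 by simp, this]
    ring
  have hS0 : S ≠ 0 := by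
    intro h0
    rw [hQ, h0, mul_zero] at hl
    simp at hl
    omega
  have hSd : S.natDegree + 4 * G = 2 * τ := by
    rw [← hd, hQ, Monic.natDegree_mul' hmon hS0, hmd, add_comm]
  have hSl : S.leadingCoeff = -((2 * G : ℕ) : ℝ) := by
    rw [← hl, hQ, leadingCoeff_monic_mul hmon]
  -- the coefficients
  have hc1 : S.coeff (4 * M - (2 * D + 1)) = 0 := by
    apply coeff_eq_zero_of_natDegree_lt
    omega
  have hc2 : S.coeff (4 * M - (2 * D + 2)) = -((2 * G : ℕ) : ℝ) := by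
    rw [← hSl, leadingCoeff]
    congr 1
    omega
  rw [hS, coeff_wp M h hw _ (by omega)] at hc1 hc2
  have e1 : ∑ k ∈ Finset.range (2 * M + 1), (-1 : ℝ) ^ k * (h k (2 * D + 1) : ℝ) =
      -(h (2 * D + 1) (2 * D + 1) : ℝ) := by
    rw [Finset.sum_eq_single (2 * D + 1)]
    · have : ((-1 : ℝ)) ^ (2 * D + 1) = -1 := by
        rw [pow_succ, pow_mul]; simp
      rw [this]; ring
    · intro k _ hk
      have : h k (2 * D + 1) = 0 := by
        by_contra h0
        have h3 := (hw _ _ h0).1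
        exact h0 (hz _ _ (by omega))
      rw [this]; simp
    · intro hh
      exact absurd (Finset.mem_range.2 (by omega)) hh
  have e2 : ∑ k ∈ Finset.range (2 * M + 1), (-1 : ℝ) ^ k * (h k (2 * D + 2) : ℝ) =
      -(h (2 * D + 1) (2 * D + 2) : ℝ) + (h (2 * D + 2) (2 * D + 2) : ℝ) := by
    have hsub : ({2 * D + 1, 2 * D + 2} : Finset ℕ) ⊆ Finset.range (2 * M + 1) := by
      intro x hx
      simp only [Finset.mem_insert, Finset.mem_singleton] at hx
      exact Finset.mem_range.2 (by omega)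
    rw [← Finset.sum_subset hsub]
    · rw [Finset.sum_pair (by omega)]
      have o1 : ((-1 : ℝ)) ^ (2 * D + 1) = -1 := by
        rw [pow_succ, pow_mul]; simp
      have o2 : ((-1 : ℝ)) ^ (2 * D + 2) = 1 := by
        rw [show 2 * D + 2 = 2 * (D + 1) by ring, pow_mul]; simp
      rw [o1, o2]; ring
    · intro k _ hk
      have : h k (2 * D + 2) = 0 := by
        by_contra h0
        have h3 := (hw _ _ h0).1
        simp only [Finset.mem_insert, Finset.mem_singleton, not_or] at hk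
        exact h0 (hz _ _ (by omega))
      rw [this]; simp
  rw [e1] at hc1
  rw [e2] at hc2
  have f1 : h (2 * D + 1) (2 * D + 1) = 0 := by
    have : (h (2 * D + 1) (2 * D + 1) : ℝ) = 0 := by linarith
    exact_mod_cast this
  have f2 : h (2 * D + 1) (2 * D + 2) = 2 * G + h (2 * D + 2) (2 * D + 2) := by
    have : (h (2 * D + 1) (2 * D + 2) : ℝ) = ((2 * G : ℕ) : ℝ) + (h (2 * D + 2) (2 * D + 2) : ℝ) := by
      linarith
    exact_mod_cast this
  have f3 : h (2 * D + 1) (2 * D + 2) ≤ 2 * G := by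
    rw [← hs]
    exact Finset.single_le_sum (f := fun w => h (2 * D + 1) w) (fun _ _ => Nat.zero_le _)
      (Finset.mem_range.2 (by omega))
  have f4 : h (2 * D + 2) (2 * D + 2) = 0 := by omega
  have f5 : h (2 * D + 1) (2 * D + 2) = 2 * G := by omega
  refine ⟨fun w => ?_, f4⟩
  by_cases hw1 : w = 2 * (D + 1)
  · rw [if_pos hw1, hw1, show 2 * (D + 1) = 2 * D + 2 by ring, f5]
  · rw [if_neg hw1]
    by_cases hw2 : w < 2 * (2 * D + 1) + 1
    · have hmem : w ∈ (Finset.range (2 * (2 * D + 1) + 1)).erase (2 * D + 2) :=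
        Finset.mem_erase.2 ⟨by omega, Finset.mem_range.2 hw2⟩
      have g1 := Finset.add_sum_erase (Finset.range (2 * (2 * D + 1) + 1))
        (fun w => h (2 * D + 1) w) (Finset.mem_range.2 (by omega : 2 * D + 2 < 2 * (2 * D + 1) + 1))
      have g2 := Finset.single_le_sum (f := fun w => h (2 * D + 1) w)
        (fun _ _ => Nat.zero_le _) hmem
      omega
    · by_contra h0
      have := (hw _ _ h0).2
      omega

/-- ROW E -/
theorem rowE {n m g : ℕ} (hn : 1 ≤ n) (hm : m ∣ n) (h2 : 2 ≤ m) (hg : 2 ≤ g) (e : ℂ → ℂ)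
    (he : Tendsto (fun x : ℝ => e x / (x : ℂ) ^ ((g - 1) * (n ^ 2 + n * (n / m)) - 1)) atTop
      (𝓝 (-((2 * g - 2 : ℕ) : ℂ)))) (h : ℕ → ℕ → ℕ)
    (hw : ∀ k w, h k w ≠ 0 → k ≤ w ∧ w ≤ 2 * k)
    (hz : ∀ k w, k ≤ 2 * (n * (n - n / m) * (g - 1)) → h k w = 0)
    (hs : ∑ w ∈ Finset.range (2 * (2 * (n * (n - n / m) * (g - 1)) + 1) + 1),
      h (2 * (n * (n - n / m) * (g - 1)) + 1) w = 2 * g - 2)
    (hcnt : ∀ p : ℕ, p.Prime → p ≡ 1 [MOD 2 * n] →
      ((p : ℂ) - 1) ^ (2 * g - 2) *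
        ∑ k ∈ Finset.range (2 * ((n ^ 2 - 1) * (g - 1)) + 1),
          ∑ w ∈ Finset.range (2 * k + 1), (-1) ^ k * (h k w : ℂ) *
            ((Real.sqrt p : ℝ) : ℂ) ^ (4 * ((n ^ 2 - 1) * (g - 1)) - w) = e p) :
    (∀ w, h (2 * (n * (n - n / m) * (g - 1)) + 1) w
      = if w = 2 * (n * (n - n / m) * (g - 1) + 1) then 2 * g - 2 else 0) ∧
    h (2 * (n * (n - n / m) * (g - 1)) + 2) (2 * (n * (n - n / m) * (g - 1)) + 2) = 0 := by
  obtain ⟨G, rfl⟩ : ∃ G, g = G + 1 := ⟨g - 1, by omega⟩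
  have hG : 1 ≤ G := by omega
  have hg2 : 2 * (G + 1) - 2 = 2 * G := by omega
  have hg1 : G + 1 - 1 = G := by omega
  rw [hg2] at he hs hcnt ⊢
  rw [hg1] at he hs hcnt hz ⊢
  obtain ⟨q, rfl⟩ := hm
  have hq : 1 ≤ q := by
    rcases Nat.eq_zero_or_pos q with h0 | h0
    · subst h0; simp at hn
    · exact h0
  have hqm : m * q / m = q := Nat.mul_div_cancel_left q (by omega)
  rw [hqm] at he hs hz ⊢
  obtain ⟨r, hr⟩ : ∃ r, m * q = q + r := ⟨m * q - q, by nlinarith [Nat.sub_add_cancel (show q ≤ m * q by nlinarith)]⟩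
  rw [hr] at he hs hcnt hz ⊢
  have hsub : q + r - q = r := by omega
  rw [hsub] at hs hz ⊢
  have hr1 : q ≤ r := by nlinarith
  refine core (K := 2 * (q + r)) hG ?_ ?_ (by omega) e he h hw hz hs hcnt
  · have : ((q + r) ^ 2 - 1) * G = (q + r) ^ 2 * G - G := by rw [Nat.sub_mul, one_mul]
    rw [this]
    have h3 : (q + r) * r * G + 1 + G ≤ (q + r) ^ 2 * G := by
      have : (q + r) ^ 2 * G = (q + r) * r * G + (q + r) * q * G := by ring
      rw [this]
      have h4 : 2 * 1 ≤ (q + r) * q := Nat.mul_le_mul (by omega) hq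
      have h5 : 2 * G ≤ (q + r) * q * G := by nlinarith
      omega
    omega
  · have : ((q + r) ^ 2 - 1) * G = (q + r) ^ 2 * G - G := by rw [Nat.sub_mul, one_mul]
    rw [this]
    have e0 : (q + r) ^ 2 * G = (q + r) * r * G + (q + r) * q * G := by ring
    have e1 : G * ((q + r) ^ 2 + (q + r) * q) = (q + r) * r * G + 2 * ((q + r) * q * G) := by ring
    rw [e1, e0]
    have h4 : 2 * 1 ≤ (q + r) * q := Nat.mul_le_mul (by omega) hq
    have h5 : 2 * G ≤ (q + r) * q * G := by nlinarith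
    omega

end Vale.Agent.P275.R2.H239
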